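import Mathlib
import Crest.Prelude.Def_Entanglement
/-! General facts on maps in Kraus form. -/
set_option autoImplicit false
namespace Crest.Agent.H0541
open Matrix Crest.Quantum
open scoped ComplexOrder Kronecker

section
variable {ι κ d e g : Type*} [Fintype ι] [Fintype κ] [Fintype d] [Fintype e] [Fintype g]

noncomputable def kr (M : ι → Matrix e d ℂ) (X : Matrix d d ℂ) : Matrix e e ℂ :=
  ∑ γ, M γ * X * (M γ)ᴴ

omit [Fintype e] in
theorem kr_lin (M : ι → Matrix e d ℂ) : IsLinearMap ℂ (kr M) where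
  map_add X Y := by simp [kr, Matrix.mul_add, Matrix.add_mul, Finset.sum_add_distrib]
  map_smul c X := by simp [kr, Finset.smul_sum]

theorem kr_cp (M : ι → Matrix e d ℂ) : IsCompletelyPositive (kr M) := by
  intro k X hX
  have : blockwise (k := Fin k) (kr M) X =
      ∑ γ, ((1 : Matrix (Fin k) (Fin k) ℂ) ⊗ₖ M γ) * X * ((1 : Matrix (Fin k) (Fin k) ℂ) ⊗ₖ M γ)ᴴ := by
    ext p q
    simp [blockwise, kr, block, Matrix.sum_apply, Matrix.mul_apply, Fintype.sum_prod_type,
      Matrix.one_apply, apply_ite (starRingEnd ℂ)]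
  rw [this]
  exact posSemidef_sum _ fun γ _ => hX.mul_mul_conjTranspose_same _

omit [Fintype g] in
theorem kr_comp (N : κ → Matrix g e ℂ) (M : ι → Matrix e d ℂ) (X : Matrix d d ℂ) :
    kr N (kr M X) = kr (fun γ : κ × ι => N γ.1 * M γ.2) X := by
  simp [kr, Fintype.sum_prod_type, Matrix.mul_sum, Matrix.sum_mul, Matrix.mul_assoc]

omit [Fintype e] in
theorem kr_sum (M : ι → Matrix e d ℂ) (N : κ → Matrix e d ℂ) (X : Matrix d d ℂ) :
    kr (Sum.elim M N) X = kr M X + kr N X := by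
  simp [kr, Fintype.sum_sum_type]

omit [Fintype g] in
theorem kr_conj {h : Type*} [Fintype h] (P : Matrix g e ℂ) (Q : Matrix d h ℂ)
    (M : ι → Matrix e d ℂ) (X : Matrix h h ℂ) :
    kr (fun γ => P * M γ * Q) X = P * kr M (Q * X * Qᴴ) * Pᴴ := by
  simp [kr, Matrix.mul_sum, Matrix.sum_mul, Matrix.mul_assoc]

theorem kr_trace (M : ι → Matrix e d ℂ) (X : Matrix d d ℂ) :
    (kr M X).trace = ((∑ γ, (M γ)ᴴ * M γ) * X).trace := by
  simp only [kr, Matrix.trace_sum, Matrix.sum_mul]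
  refine Finset.sum_congr rfl fun γ _ => ?_
  rw [Matrix.trace_mul_comm, Matrix.mul_assoc]

omit [Fintype e] in
theorem choi_kr [DecidableEq d] (M : ι → Matrix e d ℂ) (p q : d × e) :
    choiMatrix (kr M) p q = ∑ γ, M γ p.2 p.1 * star (M γ q.2 q.1) := by
  simp [choiMatrix, kr, Matrix.sum_apply, Matrix.mul_apply, Matrix.single_apply, ite_and]

omit [Fintype e] in
theorem choi_ne_zero [DecidableEq d] (M : ι → Matrix e d ℂ) (γ : ι) (h : M γ ≠ 0) :
    choiMatrix (kr M) ≠ 0 := by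
  intro h0
  apply h
  ext a b
  have h1 := congrFun (congrFun h0 (b, a)) (b, a)
  rw [choi_kr, Matrix.zero_apply,
    Finset.sum_eq_zero_iff_of_nonneg fun γ _ => mul_star_self_nonneg _] at h1
  simpa using h1 γ (Finset.mem_univ _)

theorem choi_vecMul [DecidableEq d] (M : ι → Matrix e d ℂ) (x : d → ℂ) (z : e → ℂ)
    (h : ∀ γ, z ⬝ᵥ (M γ *ᵥ x) = 0) : (fun p : d × e => x p.1 * z p.2) ᵥ* choiMatrix (kr M) = 0 := by
  funext q
  have : ((fun p : d × e => x p.1 * z p.2) ᵥ* choiMatrix (kr M)) q =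
      ∑ γ, (z ⬝ᵥ (M γ *ᵥ x)) * star (M γ q.2 q.1) := by
    simp only [Matrix.vecMul, dotProduct, choi_kr, Finset.mul_sum, Matrix.mulVec, Finset.sum_mul]
    rw [Finset.sum_comm]
    refine Finset.sum_congr rfl fun γ _ => ?_
    rw [Fintype.sum_prod_type, Finset.sum_comm]
    refine Finset.sum_congr rfl fun a _ => Finset.sum_congr rfl fun b _ => ?_
    ring
  rw [this]; simp [h]

/-- no product vector in the range -/
theorem range_free {J : Type*} (v : J → d → ℂ) (w : J → e → ℂ)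
    (hv : ∀ x z, (∀ i, (x ⬝ᵥ v i) * (z ⬝ᵥ w i) = 0) → x = 0 ∨ z = 0)
    (C : Matrix (d × e) (d × e) ℂ) (hC : ∀ i, (fun p : d × e => v i p.1 * w i p.2) ᵥ* C = 0)
    (x : d → ℂ) (z : e → ℂ) (h : ∃ y, C *ᵥ y = fun p => x p.1 * z p.2) : x = 0 ∨ z = 0 := by
  obtain ⟨y, hy⟩ := h
  refine hv x z fun i => ?_
  have := Matrix.dotProduct_mulVec (fun p : d × e => v i p.1 * w i p.2) C y
  rw [hC, hy, zero_dotProduct] at this
  rw [← this]
  simp only [dotProduct, Fintype.sum_prod_type, Finset.sum_mul_sum]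
  refine Finset.sum_congr rfl fun a _ => Finset.sum_congr rfl fun b _ => ?_
  ring

theorem not_sep [DecidableEq d] [DecidableEq e] {J : Type*} (v : J → d → ℂ) (w : J → e → ℂ)
    (hv : ∀ x z, (∀ i, (x ⬝ᵥ v i) * (z ⬝ᵥ w i) = 0) → x = 0 ∨ z = 0)
    (C : Matrix (d × e) (d × e) ℂ) (hC : ∀ i, (fun p : d × e => v i p.1 * w i p.2) ᵥ* C = 0)
    (h0 : C ≠ 0) : ¬ IsSeparable C := by
  rintro ⟨r, A, B, hA, hB, rfl⟩
  apply h0
  have key : ∀ i t, A t *ᵥ star (v i) = 0 ∨ B t *ᵥ star (w i) = 0 := by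
    intro i t
    have h1 : ∑ t, (star (star (v i)) ⬝ᵥ (A t *ᵥ star (v i))) *
        (star (star (w i)) ⬝ᵥ (B t *ᵥ star (w i))) = 0 := by
      have := Matrix.dotProduct_mulVec (fun p : d × e => v i p.1 * w i p.2) (∑ t, A t ⊗ₖ B t)
        (fun p : d × e => star (v i p.1) * star (w i p.2))
      rw [hC, zero_dotProduct, Matrix.sum_mulVec, dotProduct_sum] at this
      rw [← this]
      refine Finset.sum_congr rfl fun t _ => ?_
      have e1 : (A t ⊗ₖ B t) *ᵥ (fun p : d × e => star (v i p.1) * star (w i p.2)) =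
          fun p : d × e => (A t *ᵥ star (v i)) p.1 * (B t *ᵥ star (w i)) p.2 := by
        funext p
        simp only [Matrix.mulVec, dotProduct, Fintype.sum_prod_type, Finset.sum_mul_sum,
          Matrix.kroneckerMap_apply, Pi.star_apply]
        refine Finset.sum_congr rfl fun a _ => Finset.sum_congr rfl fun b _ => ?_
        ring
      rw [e1]
      simp only [star_star, dotProduct, Fintype.sum_prod_type, Finset.sum_mul_sum]
      refine Finset.sum_congr rfl fun a _ => Finset.sum_congr rfl fun b _ => ?_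
      ring
    rw [Finset.sum_eq_zero_iff_of_nonneg fun t _ => mul_nonneg ((hA t).dotProduct_mulVec_nonneg _)
      ((hB t).dotProduct_mulVec_nonneg _)] at h1
    rcases mul_eq_zero.1 (h1 t (Finset.mem_univ _)) with h | h
    · exact Or.inl (((hA t).dotProduct_mulVec_zero_iff _).1 h)
    · exact Or.inr (((hB t).dotProduct_mulVec_zero_iff _).1 h)
  refine Finset.sum_eq_zero fun t _ => ?_
  ext p q
  have := hv (star (A t p.1)) (star (B t p.2)) fun i => by
    rcases key i t with h | h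
    · have h2 : star (A t p.1) ⬝ᵥ v i = star ((A t *ᵥ star (v i)) p.1) := by
        simp [dotProduct, Matrix.mulVec]
      rw [h2, h]; simp
    · have h2 : star (B t p.2) ⬝ᵥ w i = star ((B t *ᵥ star (w i)) p.2) := by
        simp [dotProduct, Matrix.mulVec]
      rw [h2, h]; simp
  rcases this with h | h
  · have := congrFun h q.1
    simp at this; simp [this]
  · have := congrFun h q.2
    simp at this; simp [this]

theorem not_eb [DecidableEq e] {n : ℕ} (Φ : Matrix (Fin n) (Fin n) ℂ → Matrix (Fin n) (Fin n) ℂ)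
    (Ψ : Matrix e e ℂ → Matrix e e ℂ) (E : Matrix e (Fin n) ℂ) (c : ℝ) (hc : 0 < c)
    (h : ∀ X, Φ X = (c : ℂ) • (Eᴴ * Ψ (E * X * Eᴴ) * E)) (hΦ : ¬ IsSeparable (choiMatrix Φ)) :
    ¬ IsEntanglementBreaking Ψ := by
  intro hE
  let ω : Fin n × e → ℂ := fun p => E p.2 p.1
  obtain ⟨r, A, B, hA, hB, hs⟩ := hE n (vecMulVec ω (star ω)) (posSemidef_vecMulVec_self_star ω)
  refine hΦ ⟨r, A, fun t => (c : ℂ) • (Eᴴ * B t * E), hA, fun t =>
    ((hB t).conjTranspose_mul_mul_same E).smul (by exact_mod_cast hc.le), ?_⟩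
  ext p q
  have h1 : block (vecMulVec ω (star ω)) p.1 q.1 = E * Matrix.single p.1 q.1 (1 : ℂ) * Eᴴ := by
    ext a b
    simp [block, ω, vecMulVec_apply, Matrix.mul_apply, Matrix.single_apply, ite_and]
  have h2 : Ψ (E * Matrix.single p.1 q.1 (1 : ℂ) * Eᴴ) = ∑ t, A t p.1 q.1 • B t := by
    ext a b
    have := congrFun (congrFun hs (p.1, a)) (q.1, b)
    simpa [blockwise, h1, Matrix.sum_apply] using this
  simp only [choiMatrix, Matrix.of_apply, h, h2, Matrix.mul_sum, Matrix.sum_mul, Matrix.mul_smul,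
    Matrix.smul_mul, Matrix.sum_apply, Matrix.smul_apply, smul_eq_mul, Matrix.kroneckerMap_apply,
    Finset.mul_sum]
  refine Finset.sum_congr rfl fun t _ => ?_
  ring

open scoped MatrixOrder Matrix.Norms.L2Operator in
theorem exists_complete [DecidableEq d] (P : Matrix d d ℂ) (hP : P.IsHermitian) :
    ∃ (s : ℝ) (B : Matrix d d ℂ), 0 < s ∧ ((s : ℂ) * s) • P + Bᴴ * B = 1 := by
  have h1 : P ≤ algebraMap ℝ _ ‖P‖ := IsSelfAdjoint.le_algebraMap_norm_self hP
  have hn := norm_nonneg P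
  set t := ‖P‖ with ht
  have h2 : (0 : Matrix d d ℂ) ≤ 1 - (((1 / (t + 1) : ℝ) : ℂ)) • P := by
    rw [Matrix.le_iff] at h1
    rw [Matrix.nonneg_iff_posSemidef]
    have h3 : (0 : ℂ) ≤ ((1 / (t + 1) : ℝ) : ℂ) := by exact_mod_cast (by positivity)
    have := ((h1.add PosSemidef.one).smul h3)
    convert this using 1
    rw [Algebra.algebraMap_eq_smul_one]
    have h4 : ((t : ℂ) + 1) ≠ 0 := by exact_mod_cast (by positivity : t + 1 ≠ 0)
    ext a b
    simp only [Matrix.sub_apply, Matrix.smul_apply, Matrix.add_apply, smul_eq_mul,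
      Complex.real_smul]
    push_cast
    field_simp
    ring
  obtain ⟨B, hB⟩ := CStarAlgebra.nonneg_iff_eq_star_mul_self.1 h2
  refine ⟨Real.sqrt (1 / (t + 1)), B, Real.sqrt_pos.2 (by positivity), ?_⟩
  rw [← Complex.ofReal_mul, Real.mul_self_sqrt (by positivity), ← star_eq_conjTranspose, ← hB]
  simp

end
end Crest.Agent.H0541
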