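import Mathlib
/-! Kernel check: any ten of nineteen explicit columns are linearly independent mod `p`. -/
set_option autoImplicit false
namespace Crest.Agent.H0541

noncomputable def frc (x : ℕ) (k : ℕ → Bool) : Bool :=
  Nat.rec (motive := fun _ => Bool) (k 0) (fun y _ => k (Nat.succ y)) x

theorem frc_eq (x : ℕ) (k : ℕ → Bool) : frc x k = k x := by cases x <;> rfl

noncomputable def zipE (p h g : ℕ) (as : List ℕ) : List ℕ → (List ℕ → Bool) → Bool :=
  List.rec (motive := fun _ => List ℕ → (List ℕ → Bool) → Bool) (fun _ k => k [])
    (fun a _ ih bs k => List.rec (motive := fun _ => Bool) (k [])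
      (fun b bs' _ => frc (Nat.mod (Nat.add (Nat.mul h a) (Nat.mul g b)) p)
        fun v => ih bs' fun t => k (v :: t)) bs) as

theorem zipE_eq (p h g : ℕ) (as bs : List ℕ) (k : List ℕ → Bool) :
    zipE p h g as bs k = k (List.zipWith (fun a b => (h * a + g * b) % p) as bs) := by
  induction as generalizing bs k with
  | nil => rfl
  | cons a as ih =>
    cases bs with
    | nil => rfl
    | cons b bs =>
      have : zipE p h g (a :: as) (b :: bs) k =
        frc ((h * a + g * b) % p) fun v => zipE p h g as bs fun t => k (v :: t) := rfl
      rw [this, frc_eq, ih]; rfl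

noncomputable def tailsK (rows : List (List ℕ)) : (List (List ℕ) → Bool) → Bool :=
  List.rec (motive := fun _ => (List (List ℕ) → Bool) → Bool) (fun k => k [])
    (fun r _ ih k => List.rec (motive := fun _ => Bool) (ih fun t => k ([] :: t))
      (fun _ as _ => ih fun t => k (as :: t)) r) rows

theorem tailsK_eq (rows : List (List ℕ)) (k : List (List ℕ) → Bool) :
    tailsK rows k = k (rows.map List.tail) := by
  induction rows generalizing k with
  | nil => rfl
  | cons r rs ih =>
    cases r with
    | nil => exact ih _
    | cons a as => exact ih _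

/-- the eliminated row -/
def elimRow (p h : ℕ) (b r : List ℕ) : List ℕ :=
  List.zipWith (fun x y => (h * x + (p - r.getD 0 0 % p) * y) % p) r.tail b

noncomputable def elimK (p h : ℕ) (b : List ℕ) (rows : List (List ℕ)) :
    (List (List ℕ) → Bool) → Bool :=
  List.rec (motive := fun _ => (List (List ℕ) → Bool) → Bool) (fun k => k [])
    (fun r _ ih k => List.rec (motive := fun _ => Bool) (ih fun t => k ([] :: t))
      (fun a as _ => frc (Nat.sub p (Nat.mod a p)) fun g => zipE p h g as b fun v =>
        ih fun t => k (v :: t)) r) rows

theorem elimK_eq (p h : ℕ) (b : List ℕ) (rows : List (List ℕ)) (k : List (List ℕ) → Bool) :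
    elimK p h b rows k = k (rows.map (elimRow p h b)) := by
  induction rows generalizing k with
  | nil => rfl
  | cons r rs ih =>
    cases r with
    | nil => exact ih _
    | cons a as =>
      have : elimK p h b ((a :: as) :: rs) k = frc (p - a % p) fun g => zipE p h g as b fun v =>
        elimK p h b rs fun t => k (v :: t) := rfl
      rw [this, frc_eq, zipE_eq, ih]; rfl

noncomputable def chk (p n : ℕ) : ℕ → List (List ℕ) → Bool :=
  Nat.rec (motive := fun _ => ℕ → List (List ℕ) → Bool) (fun _ _ => true)
    (fun _ ih s rows => List.rec (motive := fun _ => Bool) true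
      (fun r0 rs _ => and
        (Nat.rec (motive := fun _ => Bool) true (fun s' _ => tailsK rows (ih s')) s)
        (List.rec (motive := fun _ => Bool) false
          (fun h b _ => and (not (Nat.beq (Nat.mod h p) 0)) (elimK p h b rs (ih s))) r0)) rows) n

def comb {p : ℕ} (c : List (ZMod p)) (rows : List (List ℕ)) (i : ℕ) : ZMod p :=
  (List.zipWith (fun x (r : List ℕ) => x * ((r.getD i 0 : ℕ) : ZMod p)) c rows).sum

theorem comb_cons {p : ℕ} (x : ZMod p) (c : List (ZMod p)) (r : List ℕ) (rows : List (List ℕ))
    (i : ℕ) : comb (x :: c) (r :: rows) i = x * ((r.getD i 0 : ℕ) : ZMod p) + comb c rows i := by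
  simp [comb]

theorem comb_tail {p : ℕ} (c : List (ZMod p)) (rows : List (List ℕ)) (i : ℕ) :
    comb c (rows.map List.tail) i = comb c rows (i + 1) := by
  induction c generalizing rows with
  | nil => simp [comb]
  | cons x c ih =>
    cases rows with
    | nil => simp [comb]
    | cons r rs =>
      rw [List.map_cons, comb_cons, comb_cons, ih]
      cases r <;> simp

theorem comb_elim {p : ℕ} (hp : 0 < p) (h n : ℕ) (b : List ℕ) (hb : b.length = n) (i : ℕ)
    (hi : i < n) (c : List (ZMod p)) (rows : List (List ℕ)) (hr : ∀ r ∈ rows, r.length = n + 1) :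
    comb c (rows.map (elimRow p h b)) i =
      h * comb c rows (i + 1) - comb c rows 0 * ((b.getD i 0 : ℕ) : ZMod p) := by
  induction c generalizing rows with
  | nil => simp [comb]
  | cons x c ih =>
    cases rows with
    | nil => simp [comb]
    | cons r rs =>
      rw [List.map_cons, comb_cons, comb_cons, comb_cons, ih rs fun r hr' => hr r (by simp [hr'])]
      have hl := hr r (by simp)
      cases r with
      | nil => simp at hl
      | cons a as =>
        have hl' : as.length = n := by simpa using hl
        have e1 : (elimRow p h b (a :: as)).getD i 0 =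
            (h * as.getD i 0 + (p - a % p) * b.getD i 0) % p := by
          simp [elimRow, List.getD_eq_getElem?_getD, List.getElem?_zipWith,
            List.getElem?_eq_getElem (hl' ▸ hi), List.getElem?_eq_getElem (hb ▸ hi)]
        rw [e1]
        have e2 : ((p - a % p : ℕ) : ZMod p) = -(a : ZMod p) := by
          rw [Nat.cast_sub (Nat.mod_lt _ hp).le]; simp
        simp only [ZMod.natCast_mod, Nat.cast_add, Nat.cast_mul, e2, List.getD_cons_succ,
          List.getD_cons_zero]
        ring

theorem sound {p : ℕ} [hp : Fact p.Prime] (n : ℕ) : ∀ (s : ℕ) (rows : List (List ℕ))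
    (P : ℕ → Prop) [DecidablePred P] (c : List (ZMod p)), chk p n s rows = true →
    (∀ r ∈ rows, r.length = n) → c.length = rows.length → rows.length + s = n →
    Nat.count P n ≤ s → (∀ i < n, ¬ P i → comb c rows i = 0) → ∀ x ∈ c, x = 0 := by
  induction n with
  | zero =>
    intro s rows P _ c _ _ h1 h2 _ _ x hx
    have : c = [] := List.length_eq_zero_iff.1 (by omega)
    simp [this] at hx
  | succ n ih =>
    intro s rows P _ c hc hr h1 h2 h3 h4
    cases rows with
    | nil =>
      have : c = [] := List.length_eq_zero_iff.1 h1
      simp [this]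
    | cons r0 rs =>
      rw [Nat.count_succ'] at h3
      by_cases h0 : P 0
      · rw [if_pos h0] at h3
        obtain ⟨s', rfl⟩ : ∃ s', s = s' + 1 := ⟨s - 1, by omega⟩
        have hc' : tailsK (r0 :: rs) (chk p n s') = true := (Bool.and_eq_true_iff.1 hc).1
        rw [tailsK_eq] at hc'
        refine ih s' _ (fun k => P (k + 1)) c hc' ?_ (by simpa using h1)
          (by simp at h2 ⊢; omega) (by omega) ?_
        · intro r hr'
          obtain ⟨r', h5, rfl⟩ := List.mem_map.1 hr'
          simp [hr r' h5]
        · intro i hi hP
          rw [comb_tail]; exact h4 _ (by omega) hP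
      · rw [if_neg h0] at h3
        have hl := hr r0 (by simp)
        cases r0 with
        | nil => simp at hl
        | cons h b =>
          have hb : b.length = n := by simpa using hl
          have hc2 : (not (Nat.beq (h % p) 0) && elimK p h b rs (chk p n s)) = true :=
            (Bool.and_eq_true_iff.1 hc).2
          rw [Bool.and_eq_true_iff, elimK_eq] at hc2
          have hh : (h : ZMod p) ≠ 0 := by
            intro e
            have := (ZMod.natCast_eq_zero_iff h p).1 e
            have h6 := hc2.1
            simp [Nat.mod_eq_zero_of_dvd this] at h6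
          cases c with
          | nil => simp
          | cons c0 cs =>
            have e0 := h4 0 (by omega) h0
            rw [comb_cons] at e0
            have hrs : ∀ r ∈ rs, r.length = n + 1 := fun r hr' => hr r (by simp [hr'])
            have hcs := ih s _ (fun k => P (k + 1)) cs hc2.2 ?_ (by simpa using h1)
              (by simp at h2 ⊢; omega) (by omega) ?_
            · have z : comb cs rs 0 = 0 := by
                unfold comb
                apply List.sum_eq_zero
                intro y hy
                obtain ⟨i, hi, rfl⟩ := List.mem_iff_getElem.1 hy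
                rw [List.getElem_zipWith, hcs _ (List.getElem_mem _), zero_mul]
              rw [z, add_zero] at e0
              intro x hx
              rcases List.mem_cons.1 hx with rfl | hx
              · exact (mul_eq_zero.1 e0).resolve_right (by simpa using hh)
              · exact hcs x hx
            · intro r hr'
              obtain ⟨r', h5, rfl⟩ := List.mem_map.1 hr'
              simp [elimRow, hrs r' h5, hb]
            · intro i hi hP
              rw [comb_elim hp.out.pos h n b hb i hi cs rs hrs]
              have e1 := h4 (i + 1) (by omega) hP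
              rw [comb_cons] at e1
              simp only [List.getD_cons_succ, List.getD_cons_zero] at e0 e1
              linear_combination (h : ZMod p) * e1 - ((b.getD i 0 : ℕ) : ZMod p) * e0

def rows0 : List (List ℕ) :=
  [[48096, 534, 13503, 133695, 71554, 40019, 5595, 441, 729, 57504, 76923, 855, 14771402, 9174438, 31635285, 49499430, 4382689, 28295298, 38473147],
   [31641, 389, 5881, 117969, 41633, 26964, 3512, 582, 127, 48219, 66741, 129, 35281249, 21540552, 36801497, 15827043, 33757608, 8882217, 29819796],
   [27223, 296, 8709, 98573, 36635, 21134, 3238, 140, 120, 38425, 19639, 83, 13286376, 44446176, 35423983, 29087773, 27855904, 39341068, 13358326],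
   [52586, 813, 19979, 157213, 72314, 44616, 5654, 460, 722, 61538, 80699, 613, 47012429, 5733493, 16596197, 22181530, 3828350, 29740740, 17755798],
   [29317, 440, 6060, 95432, 72099, 33777, 5073, 662, 940, 55165, 59200, 112, 1970649, 39841323, 13921380, 16519104, 49708349, 30363640, 40801363],
   [51354, 712, 17059, 166763, 94276, 51857, 7269, 740, 876, 79014, 96399, 563, 35401968, 12818004, 40561686, 6066020, 42786855, 8235568, 3613107],
   [56291, 325, 7070, 171808, 83601, 46930, 5632, 673, 838, 73187, 110990, 668, 3421342, 43664099, 1009908, 35338244, 49788953, 19026359, 33814633],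
   [44036, 229, 3373, 160481, 34674, 18635, 5179, 533, 451, 50168, 52133, 941, 19504885, 43516282, 35775030, 12305426, 25018957, 10959638, 6900333],
   [44225, 745, 24389, 129275, 71565, 39345, 4691, 593, 759, 53513, 80699, 825, 19611357, 6850653, 28374729, 29288419, 22055713, 49248738, 44790276],
   [30795, 676, 18572, 112344, 59847, 35059, 3775, 438, 345, 39771, 63582, 794, 35805955, 14453679, 46262814, 43076806, 48058682, 35897056, 26179796]]

theorem chk0 : chk 50004013 19 9 rows0 = true := by decide +kernel

instance prime_p : Fact (Nat.Prime 50004013) := ⟨by norm_num⟩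

theorem rows0_li (S : Finset (Fin 19)) (hS : 10 ≤ S.card) (c : Fin 10 → ZMod 50004013)
    (hc : ∀ i ∈ S, ∑ r, c r * (((rows0.getD r []).getD i 0 : ℕ) : ZMod 50004013) = 0) :
    c = 0 := by
  classical
  have key := sound (p := 50004013) 19 9 rows0 (fun i => ∀ h : i < 19, (⟨i, h⟩ : Fin 19) ∉ S)
    (List.ofFn c) chk0 (by decide) (by simp [rows0]) (by simp [rows0]) ?_ ?_
  · funext r
    exact key _ (List.mem_ofFn.2 ⟨r, rfl⟩)
  · rw [Nat.count_eq_card_filter_range]
    have : (Finset.filter (fun i => ∀ h : i < 19, (⟨i, h⟩ : Fin 19) ∉ S) (Finset.range 19)) =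
        (Sᶜ).map Fin.valEmbedding := by
      ext i
      simp only [Finset.mem_filter, Finset.mem_range, Finset.mem_map, Finset.mem_compl,
        Fin.valEmbedding_apply]
      constructor
      · rintro ⟨h1, h2⟩; exact ⟨⟨i, h1⟩, h2 h1, rfl⟩
      · rintro ⟨a, h1, rfl⟩; exact ⟨a.2, fun _ => h1⟩
    rw [this, Finset.card_map, Finset.card_compl]
    simp; omega
  · intro i hi hP
    have hP' : (⟨i, hi⟩ : Fin 19) ∈ S := by
      by_contra h; exact hP fun _ => h
    have := hc _ hP'
    simp only [Fin.sum_univ_succ, Fin.sum_univ_zero] at this
    simpa [comb, rows0, List.ofFn_succ] using this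

end Crest.Agent.H0541
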