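import Mathlib
import Crest.Agent.H0541.Chk
/-! Nineteen kernel product vectors in general position with respect to quadrics. -/
set_option autoImplicit false
namespace Crest.Agent.H0541
open Polynomial Matrix

abbrev RR := integralClosure ℤ ℂ

def Kz : Fin 6 → Matrix (Fin 4) (Fin 4) ℤ :=
  ![!![-100, -50, 90, -100; -50, -35, 45, -80; 90, 45, -81, 90; -100, -80, 90, -190],
    !![32, 4, 0, -4; 4, 1, 0, 1; 0, 0, 0, 0; -4, 1, 0, 5],
    !![0, 2, 0, 6; 2, 1, -1, 2; 0, -1, 0, -3; 6, 2, -3, 3],
    !![0, 0, 0, 0; 0, -35, 10, 35; 0, 10, -8, -10; 0, 35, -10, -35],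
    !![0, 0, 0, 0; 0, 0, 0, 0; 0, 0, 1, 5; 0, 0, 5, -35],
    !![0, 0, 0, 0; 0, 7, -5, 0; 0, -5, 3, 0; 0, 0, 0, 0]]

def pr : Fin 10 → Fin 4 × Fin 4 :=
  ![(0, 0), (0, 1), (0, 2), (0, 3), (1, 1), (1, 2), (1, 3), (2, 2), (2, 3), (3, 3)]

def ver {S : Type*} [Mul S] (α : Fin 4 → S) : Fin 10 → S := fun m => α (pr m).1 * α (pr m).2

def Ker {S : Type*} [CommRing S] (α β : Fin 4 → S) : Prop :=
  ∀ a, ∑ k, ∑ i, β k * (Kz a k i : S) * α i = 0

theorem Ker.map {S T : Type*} [CommRing S] [CommRing T] (f : S →+* T) {α β : Fin 4 → S}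
    (h : Ker α β) : Ker (fun j => f (α j)) (fun j => f (β j)) := by
  intro a
  have := congrArg f (h a)
  simpa [map_sum] using this

theorem exists_phi : ∃ (k : Type) (_ : Field k) (_ : CharP k 50004013), Nonempty (RR →+* k) := by
  have hp : Prime ((50004013 : ℕ) : ℤ) := Nat.prime_iff_prime_int.1 prime_p.out
  have : (Ideal.span {((50004013 : ℕ) : ℤ)}).IsMaximal :=
    PrincipalIdealRing.isMaximal_of_irreducible hp.irreducible
  obtain ⟨Q, hQ, hc⟩ := Ideal.exists_ideal_over_maximal_of_isIntegral (S := RR)
    (Ideal.span {((50004013 : ℕ) : ℤ)}) (by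
      rw [(RingHom.injective_iff_ker_eq_bot _).1 (algebraMap ℤ RR).injective_int]; exact bot_le)
  let _ := Ideal.Quotient.field Q
  refine ⟨RR ⧸ Q, Ideal.Quotient.field Q, ?_, ⟨Ideal.Quotient.mk Q⟩⟩
  rw [CharP.charP_iff_prime_eq_zero prime_p.out]
  have : ((50004013 : ℕ) : ℤ) ∈ Q.comap (algebraMap ℤ RR) := by
    rw [hc]; exact Ideal.mem_span_singleton_self _
  rw [Ideal.mem_comap, map_natCast] at this
  rw [← map_natCast (Ideal.Quotient.mk Q)]
  exact Ideal.Quotient.eq_zero_iff_mem.2 this

theorem lift_root {k : Type} [Field k] (φ : RR →+* k) (F : ℤ[X]) (hm : F.Monic) (ρ : k)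
    (h : aeval ρ F = 0) : ∃ r : RR, aeval r F = 0 ∧ φ r = ρ := by
  have hs : (F.map (algebraMap ℤ RR)).Splits := by
    refine Splits.of_splits_map_of_injective (i := algebraMap RR ℂ) Subtype.val_injective
      (IsAlgClosed.splits _) ?_
    intro a ha
    have h1 := isRoot_of_mem_roots ha
    rw [Polynomial.map_map, IsRoot.def, eval_map] at h1
    exact ⟨⟨a, F, hm, by
      rw [← h1]; congr 1⟩, rfl⟩
  have e := hs.eq_prod_roots_of_monic (hm.map _)
  have h2 : eval ρ ((F.map (algebraMap ℤ RR)).map φ) = 0 := by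
    rw [Polynomial.map_map, eval_map]
    convert h using 1
    rw [aeval_def]; congr 1; exact Subsingleton.elim _ _
  rw [e, Polynomial.map_multiset_prod, eval_multiset_prod, Multiset.prod_eq_zero_iff] at h2
  simp only [Multiset.map_map, Multiset.mem_map, Function.comp] at h2
  obtain ⟨r, hr, h3⟩ := h2
  refine ⟨r, ?_, ?_⟩
  · have := isRoot_of_mem_roots hr
    rwa [IsRoot.def, eval_map_algebraMap] at this
  · simp at h3; exact (sub_eq_zero.1 h3).symm

def ev {S : Type*} [CommRing S] (l : List ℤ) (x : S) : S :=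
  l.foldr (fun (c : ℤ) (acc : S) => (c : S) + x * acc) 0

theorem map_ev {S T : Type*} [CommRing S] [CommRing T] (f : S →+* T) (l : List ℤ) (x : S) :
    f (ev l x) = ev l (f x) := by
  induction l with
  | nil => simp [ev]
  | cons c l ih => simp only [ev, List.foldr_cons, map_add, map_mul, map_intCast] at ih ⊢; rw [ih]

def lF : List ℤ := [97571593028774428101, -4349426420502428544, 66025117611987084, -346581739939392, -294586195194, 5200402824, 2415528, -8648, 1]
def lA : Fin 4 → List ℤ := ![[-1307910582126259659430560, 39708661171407242091570, -312660485369998932240, -354338586096174990, 7819033163507550, 4358222432820, -18203704890, 2405670],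
    [-1359834772694139032997384, 58125257640138533039532, -871500479264221099374, 4853659301866841364, -3641596997340960, -31646001061026, 24056818932, 26988554],
    [-4547586957590497798464147, 169242622787032850998296, -2035988634442668832827, 7440797340628310232, 10367892262653165, -53346030383268, -40806375489, 48660572],
    [-1476258202525357097168130, 57580969024426525886880, -749220022102023435690, 3277363578301875600, 2228544566642610, -29505785522670, -9136734660, 16355530]]
def lB : Fin 4 → List ℤ := ![[-1307910582126259659430560, 39708661171407242091570, -312660485369998932240, -354338586096174990, 7819033163507550, 4358222432820, -18203704890, 2405670],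
    [-33913128630443278896257796, 1069994361871284378602220, -8874901291570556592474, 1783170897935297076, 141974403797624508, 54440345687478, -238228000396, 26988554],
    [-60128827904362513885065333, 1863231320139075924427800, -15318333639145213472997, 2599642532970537768, 247328709895632339, 94320218279364, -414987787303, 48660572],
    [-21212960658958747404570330, 649813883436140634015480, -5285684702351716289910, 829598780061846720, 84449925950852610, 30606903983730, -139224595700, 16355530]]
def lH : Fin 6 → List ℤ := ![[-67307392893688524563540457956391, 1780286697119084827510754223984, -11875264343513503989595109010, 2532108041568155700349056, 99753678509200198826049, 22592797799269475472, -71158788623590244],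
    [4121893927251467831398769477964, -98130994256952370920473831376, 539059086063782556604534800, 481798079398944431904096, -4105825884282691100736, -1532405489566315008, 3338551379656096],
    [-2290451306046631838131663426320, 71440777160205943452893089560, -580475390126473150554169620, 607272462781696726809480, 5094213657191398751760, 788765624213378880, -3373378757930720],
    [-16687547065375784851792019664708, 372904139208822623264230015392, -1892278437250744086564658680, -2394260822020660200383472, 14871601885046975756712, 12889285029206631936, -12551771518803072],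
    [1061324432956203495481262430351, -15347729626151523619132819224, -77908521577988659818016890, 768315674777849455773384, 2668081452644749196511, -2285179653964015392, 963928063667284],
    [-377198728067808833338383623019, 16375408875237149581688373456, -154017320446156792087801170, 280366323420840750064224, 1075073797058561922861, -1431673291306573152, -930556619750916]]

noncomputable def Fp : ℤ[X] := X ^ 8 + C (-8648) * X ^ 7 + C (2415528) * X ^ 6 + C (5200402824) * X ^ 5 + C (-294586195194) * X ^ 4 + C (-346581739939392) * X ^ 3 + C (66025117611987084) * X ^ 2 + C (-4349426420502428544) * X ^ 1 + C (97571593028774428101) * X ^ 0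

theorem Fp_monic : Fp.Monic := by unfold Fp; monicity!

theorem aeval_Fp {S : Type*} [CommRing S] (x : S) : aeval x Fp = ev lF x := by
  simp only [Fp, lF, ev, List.foldr, map_add, map_mul, map_pow, aeval_X, aeval_C]
  simp only [eq_intCast]
  push_cast; ring

theorem ker_ev {S : Type*} [CommRing S] (r : S) (h : ev lF r = 0) :
    Ker (fun j => ev (lA j) r) (fun j => ev (lB j) r) := by
  intro a
  have : ∑ k, ∑ i, ev (lB k) r * (Kz a k i : S) * ev (lA i) r = ev (lH a) r * ev lF r := by
    fin_cases a <;>
    · simp only [Fin.sum_univ_four, Kz, lA, lB, lH, lF, ev, Matrix.cons_val, Matrix.of_apply,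
        Fin.reduceFinMk, Matrix.cons_val_zero, Matrix.cons_val_one, List.foldr, Fin.isValue,
        Matrix.cons_val', Matrix.cons_val_fin_one]
      push_cast; ring
  rw [this, h, mul_zero]

def pts (i : Fin 19) (j : Fin 4) : ℕ :=
  (List.getD [[4, 3, 5, 50004012],
    [0, 1, 0, 0],
    [50004012, 6, 0, 50004011],
    [9, 0, 10, 0],
    [50004011, 5, 7, 3],
    [50004012, 5, 5, 1],
    [1, 1, 1, 1],
    [0, 0, 1, 0],
    [0, 0, 0, 1],
    [2, 3, 7, 1],
    [50004012, 6, 10, 50004011],
    [1, 0, 0, 0],
    [25664000, 17198790, 20487795, 24821535],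
    [7949609, 10399713, 24821745, 47370278],
    [9632556, 16820331, 43328488, 15185417],
    [27991220, 17726949, 47750791, 38962301],
    [14813414, 36908537, 21819221, 41505348],
    [29145252, 20443515, 34930453, 45054224],
    [15292144, 26298809, 3130390, 45803052]] i []).getD j 0

def ratA (i : Fin 19) (j : Fin 4) : ℤ :=
  (List.getD [[4, 3, 5, -1],
    [0, 1, 0, 0],
    [-1, 6, 0, -2],
    [9, 0, 10, 0],
    [-2, 5, 7, 3],
    [-1, 5, 5, 1],
    [1, 1, 1, 1],
    [0, 0, 1, 0],
    [0, 0, 0, 1],
    [2, 3, 7, 1],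
    [-1, 6, 10, -2],
    [1, 0, 0, 0]] i []).getD j 0

def ratB (i : Fin 19) (j : Fin 4) : ℤ :=
  (List.getD [[0, 0, 1, 0],
    [-2, 5, 7, 3],
    [1, 0, 0, 0],
    [-1, 6, 10, -2],
    [0, 1, 0, 0],
    [1, 1, 1, 1],
    [-1, 5, 5, 1],
    [4, 3, 5, -1],
    [2, 3, 7, 1],
    [0, 0, 0, 1],
    [9, 0, 10, 0],
    [-1, 6, 0, -2]] i []).getD j 0

def rho (i : Fin 19) : ℤ := List.getD [0, 0, 0, 0, 0, 0, 0, 0, 0, 0, 0, 0, 3842410, 4310153, 5886435, 7485628, 8181188, 17602515, 26134305] i 0

theorem rat_ok : ∀ i : Fin 19, i.val < 12 → (∀ j, (50004013 : ℤ) ∣ ratA i j - pts i j) ∧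
    (∃ j, ratB i j ≠ 0) ∧ ∀ a, ∑ k, ∑ l, ratB i k * Kz a k l * ratA i l = 0 := by
  decide +kernel

theorem irr_ok : ∀ i : Fin 19, ¬ i.val < 12 → (50004013 : ℤ) ∣ ev lF (rho i) ∧
    (∀ j, (50004013 : ℤ) ∣ ev (lA j) (rho i) - pts i j) ∧
    ¬ (50004013 : ℤ) ∣ ev (lB 0) (rho i) := by
  decide +kernel

def GG (r m : Fin 10) : ℕ := (r.val * 10 + m.val + 7) ^ 5 % 997

theorem rows_ok : ∀ (r : Fin 10) (i : Fin 19),
    (rows0.getD r []).getD i 0 = (∑ m, GG r m * ver (pts i) m) % 50004013 := by
  decide +kernel

theorem lift_all {k : Type} [Field k] [CharP k 50004013] (φ : RR →+* k) (i : Fin 19) :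
    ∃ α β : Fin 4 → RR, (∀ j, φ (α j) = (pts i j : k)) ∧ β ≠ 0 ∧ Ker α β := by
  have hz : ∀ n : ℤ, (n : k) = 0 ↔ (50004013 : ℤ) ∣ n := fun n =>
    CharP.intCast_eq_zero_iff k 50004013 n
  by_cases hi : i.val < 12
  · obtain ⟨h1, ⟨j, h2⟩, h3⟩ := rat_ok i hi
    refine ⟨fun j => ratA i j, fun j => ratB i j, fun j => ?_, fun h => h2 ?_, ?_⟩
    · have := (hz _).2 (h1 j)
      rw [map_intCast]; push_cast at this; exact sub_eq_zero.1 this
    · have : ((ratB i j : ℤ) : RR) = 0 := congrFun h j
      exact_mod_cast this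
    · exact Ker.map (Int.castRingHom RR) (α := ratA i) (β := ratB i) h3
  · obtain ⟨h1, h2, h3⟩ := irr_ok i hi
    have hev : ∀ l, ((ev l (rho i) : ℤ) : k) = ev l ((rho i : ℤ) : k) := fun l =>
      map_ev (Int.castRingHom k) l _
    obtain ⟨r, hr, hφ⟩ := lift_root φ Fp Fp_monic ((rho i : ℤ) : k)
      (by rw [aeval_Fp, ← hev]; exact (hz _).2 h1)
    rw [aeval_Fp] at hr
    refine ⟨_, _, fun j => ?_, fun h => h3 ?_, ker_ev r hr⟩
    · have := (hz _).2 (h2 j)
      rw [map_ev, hφ, ← hev]; push_cast at this; exact sub_eq_zero.1 this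
    · have := congrArg φ (congrFun h 0)
      rw [map_ev, hφ, ← hev] at this
      exact (hz _).1 (by simpa using this)

theorem det_bar (e : Fin 10 → Fin 19) (he : Function.Injective e) :
    (Matrix.of fun m j => ver (fun t => (pts (e j) t : ZMod 50004013)) m).det ≠ 0 := by
  intro h0
  have h1 : ((Matrix.of fun r m => (GG r m : ZMod 50004013)) *
      (Matrix.of fun m j => ver (fun t => (pts (e j) t : ZMod 50004013)) m)).det = 0 := by
    rw [Matrix.det_mul, h0, mul_zero]
  obtain ⟨c, hc, h2⟩ := Matrix.exists_vecMul_eq_zero_iff.2 h1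
  refine hc (rows0_li (Finset.univ.image e) ?_ c ?_)
  · rw [Finset.card_image_of_injective _ he]; simp
  · intro i hi
    obtain ⟨j, -, rfl⟩ := Finset.mem_image.1 hi
    have := congrFun h2 j
    simp only [rows_ok, ZMod.natCast_mod]
    simpa [Matrix.vecMul, dotProduct, Matrix.mul_apply, ver] using this

theorem exists_pts : ∃ α β : Fin 19 → Fin 4 → ℂ, (∀ i, β i ≠ 0) ∧ (∀ i, Ker (α i) (β i)) ∧
    ∀ x z : Fin 10 → ℂ, (∀ i, (x ⬝ᵥ ver (α i)) * (z ⬝ᵥ ver (α i)) = 0) → x = 0 ∨ z = 0 := by
  classical
  obtain ⟨k, _, _, ⟨φ⟩⟩ := exists_phi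
  choose α β h1 h2 h3 using lift_all φ
  let ι : RR →+* ℂ := algebraMap RR ℂ
  have hι : Function.Injective ι := Subtype.val_injective
  have ten : ∀ (S : Finset (Fin 19)) (x : Fin 10 → ℂ), 10 ≤ S.card →
      (∀ i ∈ S, x ⬝ᵥ ver (fun j => ι (α i j)) = 0) → x = 0 := by
    intro S x hS hx
    obtain ⟨T, hT, hc⟩ := Finset.exists_subset_card_eq hS
    let e := T.orderEmbOfFin hc
    let A : Matrix (Fin 10) (Fin 10) RR := Matrix.of fun m j => ver (α (e j)) m
    have hA : A.det ≠ 0 := by
      intro h0
      let ψ := ZMod.castHom (dvd_refl 50004013) k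
      apply det_bar e e.injective
      apply ψ.injective
      rw [map_zero, RingHom.map_det]
      have : ψ.mapMatrix (Matrix.of fun m j => ver (fun t => (pts (e j) t : ZMod 50004013)) m) =
          φ.mapMatrix A := by
        ext m j
        simp only [RingHom.mapMatrix_apply, Matrix.map_apply, Matrix.of_apply, ver, map_mul,
          map_natCast, A, h1]
      rw [this, ← RingHom.map_det, h0, map_zero]
    have hA' : (ι.mapMatrix A).det ≠ 0 := by
      rw [← RingHom.map_det]; exact fun h => hA (hι (by rw [h, map_zero]))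
    refine Matrix.eq_zero_of_vecMul_eq_zero hA' ?_
    funext j
    have := hx (e j) (hT (T.orderEmbOfFin_mem hc j))
    simpa [Matrix.vecMul, dotProduct, A, ver] using this
  refine ⟨fun i j => ι (α i j), fun i j => ι (β i j), fun i h => h2 i ?_,
    fun i => (h3 i).map ι, fun x z h => ?_⟩
  · funext j; exact hι (by simpa using congrFun h j)
  · let S := Finset.univ.filter fun i => x ⬝ᵥ ver (fun j => ι (α i j)) = 0
    by_cases hS : 10 ≤ S.card
    · exact Or.inl (ten S x hS fun i hi => (Finset.mem_filter.1 hi).2)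
    · refine Or.inr (ten Sᶜ z ?_ fun i hi => ?_)
      · rw [Finset.card_compl]; simp only [Fintype.card_fin]; omega
      · exact (mul_eq_zero.1 (h i)).resolve_left fun h' => by simp [S, h'] at hi

end Crest.Agent.H0541
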