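import Mathlib
import Crest.Agent.H0541.Pts
import Crest.Agent.H0541.Kraus
/-! The two PPT maps: symmetric square / exterior square of a rank-six PPT state on `4 × 4`. -/
set_option autoImplicit false
namespace Crest.Agent.H0541
open Matrix Crest.Quantum
open scoped ComplexOrder Kronecker

def wz : Fin 6 → ℕ := ![1, 50, 450, 6, 72, 360]

def Tz (k i l j : Fin 4) : ℤ := ∑ a, wz a * Kz a k i * Kz a l j

theorem Tz_symm : ∀ k i l j, Tz k i l j = Tz l i k j := by decide +kernel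

theorem Kz_symm : ∀ a k i, Kz a k i = Kz a i k := by decide +kernel

noncomputable def Kc (a : Fin 6) : Matrix (Fin 4) (Fin 4) ℂ :=
  Matrix.of fun k i => (Real.sqrt (wz a) : ℂ) * (Kz a k i : ℂ)

theorem Kc_T (k i l j : Fin 4) : ∑ a, Kc a k i * star (Kc a l j) = (Tz k i l j : ℂ) := by
  simp only [Tz, Kc, Matrix.of_apply]
  push_cast
  refine Finset.sum_congr rfl fun a _ => ?_
  have : ((Real.sqrt (wz a) : ℝ) : ℂ) * (Real.sqrt (wz a) : ℝ) = (wz a : ℂ) := by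
    rw [← Complex.ofReal_mul, Real.mul_self_sqrt (by positivity)]; simp
  simp only [star_mul', Complex.star_def, Complex.conj_ofReal, map_intCast]
  rw [← this]; ring

noncomputable def KK (ab : Fin 6 × Fin 6) : Matrix (Fin 4 × Fin 4) (Fin 4 × Fin 4) ℂ :=
  Kc ab.1 ⊗ₖ Kc ab.2

theorem KK_apply (Y : Matrix (Fin 4 × Fin 4) (Fin 4 × Fin 4) ℂ) (p q : Fin 4 × Fin 4) :
    kr KK Y p q = ∑ s, ∑ r, Y r s * ((Tz p.1 r.1 q.1 s.1 : ℂ) * (Tz p.2 r.2 q.2 s.2 : ℂ)) := by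
  have e : ∀ r s : Fin 4 × Fin 4, (Tz p.1 r.1 q.1 s.1 : ℂ) * (Tz p.2 r.2 q.2 s.2 : ℂ) =
      ∑ γ, KK γ p r * star (KK γ q s) := by
    intro r s
    simp only [← Kc_T, Finset.sum_mul_sum, Fintype.sum_prod_type, KK, kroneckerMap_apply,
      star_mul']
    refine Finset.sum_congr rfl fun a _ => Finset.sum_congr rfl fun b _ => ?_
    ring
  simp only [e, kr, Matrix.sum_apply, Matrix.mul_apply, Finset.mul_sum, Finset.sum_mul,
    conjTranspose_apply]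
  rw [Finset.sum_comm]
  refine Finset.sum_congr rfl fun s _ => ?_
  rw [Finset.sum_comm]
  refine Finset.sum_congr rfl fun a _ => Finset.sum_congr rfl fun b _ => ?_
  ring

theorem KK_symm (Y : Matrix (Fin 4 × Fin 4) (Fin 4 × Fin 4) ℂ) : (kr KK Y)ᵀ = kr KK Y := by
  ext p q
  rw [transpose_apply, KK_apply, KK_apply]
  simp only [Tz_symm q.1 _ p.1, Tz_symm q.2 _ p.2]

theorem KK_tr (ab : Fin 6 × Fin 6) : (KK ab)ᵀ = KK ab := by
  ext p q
  simp [KK, Kc, Kz_symm ab.1 q.1, Kz_symm ab.2 q.2]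

def wp : Fin 10 → Fin 4 × Fin 4 :=
  ![(0, 1), (0, 2), (0, 3), (1, 2), (1, 3), (2, 3), (0, 0), (0, 0), (0, 0), (0, 0)]

def sg : Fin 10 → ℤ := ![1, -1, 1, 1, -1, 1, 0, 0, 0, 0]

def ix (ij : Fin 4 × Fin 4) : Fin 10 :=
  !![0, 1, 2, 3; 1, 4, 5, 6; 2, 5, 7, 8; 3, 6, 8, 9] ij.1 ij.2

theorem pr_ix : ∀ ij, pr (ix ij) = ij ∨ pr (ix ij) = ij.swap := by decide +kernel

noncomputable def Em : Matrix (Fin 4 × Fin 4) (Fin 10) ℂ :=
  Matrix.of fun ij m => if m = ix ij then 1 else 0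

noncomputable def Wm : Matrix (Fin 10) (Fin 4 × Fin 4) ℂ :=
  Matrix.of fun p kl => (if kl = wp p then 1 else 0) - (if kl = (wp p).swap then 1 else 0)

noncomputable def Jm : Matrix (Fin 10) (Fin 10) ℂ :=
  Matrix.of fun p q => if p.val + q.val = 5 then (sg p : ℂ) else 0

theorem Em_real : Emᴴ = Emᵀ := by
  ext a b; simp [Em, apply_ite (starRingEnd ℂ)]

theorem Wm_real : Wmᴴ = Wmᵀ := by
  ext a b; simp [Wm, apply_ite (starRingEnd ℂ)]

theorem conj_symm {m n : Type*} [Fintype n] (P : Matrix m n ℂ) (hP : Pᴴ = Pᵀ)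
    (S : Matrix n n ℂ) (hS : Sᵀ = S) : (P * S * Pᴴ)ᵀ = P * S * Pᴴ := by
  rw [hP, transpose_mul, transpose_mul, transpose_transpose, hS, Matrix.mul_assoc]

noncomputable def AA (ab : Fin 6 × Fin 6) : Matrix (Fin 10) (Fin 10) ℂ := Wm * KK ab * Em
noncomputable def BB (ab : Fin 6 × Fin 6) : Matrix (Fin 10) (Fin 10) ℂ :=
  Emᵀ * KK ab * (Wmᵀ * Jm)

theorem AA_symm (X : Matrix (Fin 10) (Fin 10) ℂ) : (kr AA X)ᵀ = kr AA X := by
  unfold AA; rw [kr_conj]; exact conj_symm _ Wm_real _ (KK_symm _)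

theorem BB_symm (X : Matrix (Fin 10) (Fin 10) ℂ) : (kr BB X)ᵀ = kr BB X := by
  unfold BB; rw [kr_conj]
  exact conj_symm _ (by rw [← Em_real, conjTranspose_conjTranspose, Em_real, transpose_transpose])
    _ (KK_symm _)

def tens (u v : Fin 4 → ℂ) : Fin 4 × Fin 4 → ℂ := fun p => u p.1 * v p.2

theorem Em_ver (α : Fin 4 → ℂ) : Em *ᵥ ver α = tens α α := by
  funext ij
  rcases pr_ix ij with h | h <;> simp [Em, mulVec, dotProduct, ver, tens, h, mul_comm]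

theorem KK_tens (ab : Fin 6 × Fin 6) (u v : Fin 4 → ℂ) :
    KK ab *ᵥ tens u v = tens (Kc ab.1 *ᵥ u) (Kc ab.2 *ᵥ v) := by
  funext p
  simp only [KK, tens, Matrix.mulVec, dotProduct, Fintype.sum_prod_type, Finset.sum_mul_sum,
    Matrix.kroneckerMap_apply]
  refine Finset.sum_congr rfl fun a _ => Finset.sum_congr rfl fun b _ => ?_
  ring

theorem Wm_mulVec (y : Fin 4 × Fin 4 → ℂ) (p : Fin 10) :
    (Wm *ᵥ y) p = y (wp p) - y (wp p).swap := by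
  simp [Wm, mulVec, dotProduct, sub_mul, Finset.sum_sub_distrib]

theorem bil_det (u v u' v' : Fin 4 → ℂ) :
    (Wm *ᵥ tens u v) ⬝ᵥ (Jm *ᵥ (Wm *ᵥ tens u' v')) = (Matrix.of ![u, v, u', v']).det := by
  have e : ∀ y : Fin 10 → ℂ, Jm *ᵥ y = ![y 5, -y 4, y 3, y 2, -y 1, y 0, 0, 0, 0, 0] := by
    intro y; funext p
    fin_cases p <;> simp [Jm, mulVec, dotProduct, Fin.sum_univ_succ, sg]
  rw [e]
  simp [dotProduct, Fin.sum_univ_succ, Wm_mulVec, wp, tens, Matrix.det_succ_row_zero,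
    Fin.succAbove]
  ring

theorem BA_apply (cd ab : Fin 6 × Fin 6) (α α' : Fin 4 → ℂ) :
    ver α' ⬝ᵥ ((BB cd * AA ab) *ᵥ ver α) =
      (Matrix.of ![Kc cd.1 *ᵥ α', Kc cd.2 *ᵥ α', Kc ab.1 *ᵥ α, Kc ab.2 *ᵥ α]).det := by
  rw [← bil_det, ← KK_tens, ← KK_tens, ← Em_ver, ← Em_ver]
  simp only [AA, BB, ← Matrix.mulVec_mulVec]
  rw [dotProduct_mulVec (ver α') Emᵀ, vecMul_transpose, ← KK_tr cd, dotProduct_mulVec _ (KK cd)ᵀ,
    vecMul_transpose, dotProduct_mulVec _ Wmᵀ, vecMul_transpose, KK_tr]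

theorem BA_van (γ : (Fin 6 × Fin 6) × (Fin 6 × Fin 6)) (α β : Fin 4 → ℂ) (hβ : β ≠ 0)
    (h : Ker α β) : ver α ⬝ᵥ ((BB γ.1 * AA γ.2) *ᵥ ver α) = 0 := by
  rw [BA_apply]
  refine Matrix.exists_mulVec_eq_zero_iff.1 ⟨β, hβ, ?_⟩
  have hk : ∀ a, (Kc a *ᵥ α) ⬝ᵥ β = 0 := by
    intro a
    have := congrArg (fun x => (Real.sqrt (wz a) : ℂ) * x) (h a)
    simp only [mul_zero, Finset.mul_sum] at this
    rw [← this]
    simp only [dotProduct, mulVec, Kc, Matrix.of_apply, Finset.sum_mul]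
    refine Finset.sum_congr rfl fun a _ => Finset.sum_congr rfl fun b _ => ?_
    ring
  funext r
  fin_cases r <;> exact hk _

theorem BA_ne : BB (2, 3) * AA (0, 1) ≠ 0 := by
  intro h
  have h1 := BA_apply (2, 3) (0, 1) ![1, 0, 0, 0] ![0, 1, 0, 0]
  rw [h, zero_mulVec, dotProduct_zero] at h1
  have h2 : ∀ a, (Real.sqrt (wz a) : ℂ) ≠ 0 := by
    intro a
    have : 0 < wz a := by revert a; decide
    exact_mod_cast (Real.sqrt_pos.2 (by exact_mod_cast this)).ne'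
  have h3 : (Matrix.of ![Kc 2 *ᵥ ![0, 1, 0, 0], Kc 3 *ᵥ ![0, 1, 0, 0], Kc 0 *ᵥ ![1, 0, 0, 0],
      Kc 1 *ᵥ ![1, 0, 0, 0]]).det = (Real.sqrt (wz 0) : ℂ) * (Real.sqrt (wz 1) : ℂ) *
        (Real.sqrt (wz 2) : ℂ) * (Real.sqrt (wz 3) : ℂ) * 134400 := by
    simp [Fin.sum_univ_succ, Matrix.det_succ_row_zero, Fin.succAbove, Kc, Kz, mulVec, dotProduct,
      vecHead, vecTail]
    ring
  rw [h3] at h1
  simp [h2] at h1

theorem main_facts : choiMatrix (kr BB ∘ kr AA) ≠ 0 ∧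
    (∀ u v : Fin 10 → ℂ, (∃ w, (choiMatrix (kr BB ∘ kr AA)).mulVec w = fun p => u p.1 * v p.2) →
        u = 0 ∨ v = 0) ∧ ¬ IsSeparable (choiMatrix (kr BB ∘ kr AA)) := by
  obtain ⟨α, β, h1, h2, h3⟩ := exists_pts
  have e : kr BB ∘ kr AA = kr fun γ : (Fin 6 × Fin 6) × (Fin 6 × Fin 6) => BB γ.1 * AA γ.2 :=
    funext fun X => kr_comp BB AA X
  rw [e]
  have h0 := choi_ne_zero (fun γ : (Fin 6 × Fin 6) × (Fin 6 × Fin 6) => BB γ.1 * AA γ.2)
    ((2, 3), (0, 1)) BA_ne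
  have hC := fun i => choi_vecMul (fun γ : (Fin 6 × Fin 6) × (Fin 6 × Fin 6) => BB γ.1 * AA γ.2)
    (ver (α i)) (ver (α i)) fun γ => BA_van γ _ _ (h1 i) (h2 i)
  exact ⟨h0, range_free _ _ h3 _ hC, not_sep _ _ h3 _ hC h0⟩

end Crest.Agent.H0541
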