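import Mathlib
import Crest.Agent.H0541.Maps
/-! The `21`-dimensional channel: two blocks of size ten and a flag. -/
set_option autoImplicit false
namespace Crest.Agent.H0541
open Matrix Crest.Quantum
open scoped ComplexOrder Kronecker

noncomputable def EE (c : ℕ) : Matrix (Fin 21) (Fin 10) ℂ :=
  Matrix.of fun a i => if a.val = i.val + c then 1 else 0

theorem EE_real (c : ℕ) : (EE c)ᴴ = (EE c)ᵀ := by
  ext a b; simp [EE, apply_ite (starRingEnd ℂ)]

theorem EE_mul (c c' : ℕ) (hc : c ≤ 10) (i j : Fin 10) :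
    ((EE c)ᴴ * EE c') i j = if i.val + c = j.val + c' then 1 else 0 := by
  rw [EE_real, Matrix.mul_apply, Finset.sum_eq_single (⟨i.val + c, by omega⟩ : Fin 21)]
  · simp [EE]
  · intro b _ hb
    have : b.val ≠ i.val + c := fun h => hb (Fin.ext h)
    simp [EE, this]
  · simp

theorem EE_self (c : ℕ) (hc : c ≤ 10) : (EE c)ᴴ * EE c = 1 := by
  ext i j; rw [EE_mul c c hc]; simp [Matrix.one_apply, Fin.ext_iff]

theorem EE_01 : (EE 0)ᴴ * EE 10 = 0 := by
  ext i j; rw [EE_mul 0 10 (by omega), if_neg (by omega)]; rfl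

theorem EE_10 : (EE 10)ᴴ * EE 0 = 0 := by
  ext i j; rw [EE_mul 10 0 (by omega), if_neg (by omega)]; rfl

theorem EE_flag (c : ℕ) (hc : c ≤ 10) (r : Fin 21) :
    (EE c)ᴴ * Matrix.single (20 : Fin 21) r (1 : ℂ) = 0 := by
  ext i j
  have : ¬ (20 = i.val + c) := by omega
  simp [Matrix.mul_apply, Matrix.single_apply, ite_and, EE, this]

noncomputable def N0 : (Fin 6 × Fin 6) ⊕ (Fin 6 × Fin 6) → Matrix (Fin 21) (Fin 21) ℂ :=
  Sum.elim (fun γ => EE 10 * AA γ * (EE 0)ᴴ) (fun γ => EE 0 * BB γ * (EE 10)ᴴ)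

theorem kr_N0 (X : Matrix (Fin 21) (Fin 21) ℂ) : kr N0 X =
    EE 10 * kr AA ((EE 0)ᴴ * X * EE 0) * (EE 10)ᴴ +
      EE 0 * kr BB ((EE 10)ᴴ * X * EE 10) * (EE 0)ᴴ := by
  rw [N0, kr_sum, kr_conj, kr_conj, conjTranspose_conjTranspose, conjTranspose_conjTranspose]

theorem exists_channel : ∃ Θ : Matrix (Fin 21) (Fin 21) ℂ → Matrix (Fin 21) (Fin 21) ℂ,
    IsChannel Θ ∧ IsPPT Θ ∧ ¬ IsEntanglementBreaking (Θ ∘ Θ) := by
  obtain ⟨s, B, hs, hB⟩ := exists_complete (∑ γ, (N0 γ)ᴴ * N0 γ)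
    (posSemidef_sum _ fun γ _ => posSemidef_conjTranspose_mul_self _).1
  let F : Fin 21 → Matrix (Fin 21) (Fin 21) ℂ := fun r => Matrix.single 20 r 1 * B
  let N := Sum.elim (fun γ => (s : ℂ) • N0 γ) F
  have hN : ∀ X, kr N X = ((s : ℂ) * s) • kr N0 X + kr F X := by
    intro X
    rw [kr_sum]; congr 1
    simp only [kr, Finset.smul_sum, conjTranspose_smul, Matrix.smul_mul, Matrix.mul_smul, smul_smul,
      Complex.star_def, Complex.conj_ofReal]
  have hF : ∀ X, kr F X = (B * X * Bᴴ).trace • Matrix.single (20 : Fin 21) (20 : Fin 21) (1 : ℂ) := by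
    intro X
    simp only [kr, F, Matrix.trace, Finset.sum_smul, conjTranspose_mul, conjTranspose_single,
      star_one]
    refine Finset.sum_congr rfl fun r _ => ?_
    have : Matrix.single (20 : Fin 21) r (1 : ℂ) * B * X * (Bᴴ * Matrix.single r (20 : Fin 21) 1) =
        Matrix.single (20 : Fin 21) r (1 : ℂ) * (B * X * Bᴴ) * Matrix.single r (20 : Fin 21) 1 := by
      simp only [Matrix.mul_assoc]
    rw [this, Matrix.single_mul_mul_single]
    simp
  have hsym : ∀ X, (kr N X)ᵀ = kr N X := by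
    intro X
    rw [hN, hF, kr_N0, transpose_add, transpose_smul, transpose_add,
      conj_symm _ (EE_real _) _ (AA_symm _), conj_symm _ (EE_real _) _ (BB_symm _),
      transpose_smul, transpose_single]
  have hfl : ∀ c ≤ 10, ∀ X, (EE c)ᴴ * kr F X = 0 := by
    intro c hc X
    rw [hF, Matrix.mul_smul, EE_flag c hc, smul_zero]
  have h0 : ∀ Y, (EE 0)ᴴ * kr N Y * EE 0 = ((s : ℂ) * s) • kr BB ((EE 10)ᴴ * Y * EE 10) := by
    intro Y
    rw [hN, Matrix.mul_add, hfl 0 (by omega), add_zero, kr_N0]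
    simp only [Matrix.mul_smul, Matrix.smul_mul, Matrix.mul_add, ← Matrix.mul_assoc, EE_01,
      EE_self 0 (by omega), Matrix.zero_mul, Matrix.one_mul, zero_add]
    rw [Matrix.mul_assoc _ (EE 0)ᴴ, EE_self 0 (by omega), Matrix.mul_one]
  have h1 : ∀ Y, (EE 10)ᴴ * kr N Y * EE 10 = ((s : ℂ) * s) • kr AA ((EE 0)ᴴ * Y * EE 0) := by
    intro Y
    rw [hN, Matrix.mul_add, hfl 10 (by omega), add_zero, kr_N0]
    simp only [Matrix.mul_smul, Matrix.smul_mul, Matrix.mul_add, ← Matrix.mul_assoc, EE_10,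
      EE_self 10 (by omega), Matrix.zero_mul, Matrix.one_mul, add_zero]
    rw [Matrix.mul_assoc _ (EE 10)ᴴ, EE_self 10 (by omega), Matrix.mul_one]
  refine ⟨kr N, ⟨kr_lin _, kr_cp _, fun X => ?_⟩, ⟨kr_cp _, ?_⟩, ?_⟩
  · rw [hN, trace_add, trace_smul, kr_trace, hF, trace_smul, trace_single_eq_same, smul_eq_mul,
      smul_eq_mul, mul_one, trace_mul_comm _ Bᴴ, ← Matrix.mul_assoc, ← smul_eq_mul, ← trace_smul,
      ← Matrix.smul_mul, ← trace_add, ← Matrix.add_mul, hB, Matrix.one_mul]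
  · simp only [hsym]; exact kr_cp _
  · refine not_eb (kr BB ∘ kr AA) _ (EE 0) (s⁻¹ ^ 4) (by positivity) (fun X => ?_) main_facts.2.2
    have hs' : (s : ℂ) ≠ 0 := by exact_mod_cast hs.ne'
    have e : (EE 0)ᴴ * (EE 0 * X * (EE 0)ᴴ) * EE 0 = X := by
      simp only [← Matrix.mul_assoc, EE_self 0 (by omega), Matrix.one_mul]
      rw [Matrix.mul_assoc _ (EE 0)ᴴ, EE_self 0 (by omega), Matrix.mul_one]
    simp only [Function.comp]
    rw [h0, h1, e, (kr_lin BB).map_smul, smul_smul, smul_smul]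
    have : (((s⁻¹ ^ 4 : ℝ) : ℂ) * ((s : ℂ) * s) * ((s : ℂ) * s)) = 1 := by
      push_cast; field_simp
    rw [this, one_smul]

end Crest.Agent.H0541
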